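import Vale.Agent.P221.H606.MU
import Vale.Agent.P221.H924.Std
import Vale.Agent.P221.St.OrMod
import Vale.Agent.P257.H702.HasV

/-!
# P221 (helper606): modules over complex-oriented ring spectra, statement layer

* `exists_isAct_of_local` : a `p`-local homotopy module over a complex-oriented commutative ring
  spectrum is a homotopy `BP`-module;
* `exists_isAct` : the same for `p`-complete spectra;
* `isFpModule_of_or`, `isFpModule_iff` : `IsFpOrModule S p n X ↔ IsFpModule S p n X`.
-/

open CategoryTheory MonoidalCategory MonObj Limits Pretriangulated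

set_option linter.unusedSectionVars false

noncomputable section

namespace Vale.Agent.P221.H606

open Vale.Agent.P251 Vale.Agent.P251.S Vale.Agent.P251.T Vale.Agent.P251.M Vale.Agent.P251.F
  Vale.Agent.P251.I EvenSpheres Vale.Agent.P257.H702 Vale.Agent.P257.H80 Vale.Agent.P251.Q
  Vale.Agent.P251.St Vale.Agent.P257.St Vale.Agent.P221.H746 Vale.Agent.P093.N0

variable {T : SHCat} {S : Susp T} {p : ℕ}

/-- **A `p`-local homotopy module over a complex-oriented commutative ring spectrum is a homotopy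
`BP`-module.** -/
theorem exists_isAct_of_local (hp : p.Prime) {X : T.C} (hX : P257.St.PLocal p X)
    (h : P221.St.IsOrModule S X) {P : RingSp T} {o : St.Oriented S P} {φ : P257.St.GHom S p P}
    (hP : P257.St.IsBrownPeterson p o φ) :
    ∃ a : SHCat.Hom (SHCat.ten P.obj X) X, P221.St.IsAct a := by
  have : Fact p.Prime := ⟨hp⟩
  obtain ⟨D, hD, ⟨U⟩, -⟩ := P257.H80.exists_muAll S.toSpaceFunctor (P251.M.lineIso S.toSpaceFunctor)
  obtain ⟨R, o', a, ha⟩ := h
  obtain ⟨u, hu, -⟩ := U.exists_mapS o'
  obtain ⟨b, hb, ho⟩ := U.exists_mapS o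
  have hBP := isBPMon_of_isBrownPeterson ptypOut hD U ptypIn hP ho
  obtain ⟨N⟩ := exists_modStr_of_mu hD hBP (X := X) hX (res u (H924.modOf ha))
  exact ⟨N.act, H924.isAct_of_modStr N⟩

/-- **A `p`-complete homotopy module over a complex-oriented commutative ring spectrum is a homotopy
`BP`-module.** -/
theorem exists_isAct (hp : p.Prime) {X : T.C} (hX : P221.St.PComplete p X)
    (h : P221.St.IsOrModule S X) {P : RingSp T} {o : St.Oriented S P} {φ : P257.St.GHom S p P}
    (hP : P257.St.IsBrownPeterson p o φ) :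
    ∃ a : SHCat.Hom (SHCat.ten P.obj X) X, P221.St.IsAct a :=
  exists_isAct_of_local hp (locObj_of_pComplete hp hX) h hP

/-- fp-spectra which are homotopy modules over a complex-oriented commutative ring spectrum -/
theorem isFpModule_of_or (hp : p.Prime) {n : ℕ} {X : T.C} (h : P221.St.IsFpOrModule S p n X) :
    P221.St.IsFpModule S p n X := by
  obtain ⟨h1, h2, h3, P, o, φ, V, hP, hV, hf⟩ := h
  obtain ⟨a, ha⟩ := exists_isAct hp h1 h3 hP
  exact ⟨h1, h2, P, o, φ, a, V, hP, ha, hV, hf⟩

theorem isFpModule_iff (hp : p.Prime) {n : ℕ} {X : T.C} :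
    P221.St.IsFpOrModule S p n X ↔ P221.St.IsFpModule S p n X := by
  refine ⟨isFpModule_of_or hp, ?_⟩
  rintro ⟨h1, h2, P, o, φ, a, V, hP, ha, hV, hf⟩
  exact ⟨h1, h2, ⟨P, o, a, ha⟩, P, o, φ, V, hP, hV, hf⟩

end Vale.Agent.P221.H606
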