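import Vale.Agent.P221.H746.Kap
import Vale.Agent.P221.H395.Comp3

/-!
# P221 (helper606): every `p`-complete homotopy `MU`-module is a homotopy `BP`-module

* `smul_sq_cofibre` : `m ^ 2 = 0` on the cofibre of `m`;
* `locObj_of_pComplete` : a `p`-complete object is `p`-local;
* `exists_modStr_pLoc` : a module structure over `R` on a `p`-local object extends to `R_(p)`;
* `ModStr.res` : restriction along a monoid map;
* `exists_modStr_of_mu` : a `p`-local homotopy `MU`-module is a homotopy `BP`-module;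
* `exists_modStr_of_mu'` : the same for `p`-complete objects.
-/

open CategoryTheory MonoidalCategory MonObj Limits Pretriangulated

set_option linter.unusedSectionVars false

universe v u

namespace Vale.Agent.P221.H606

open Vale.Agent.P251 Vale.Agent.P251.S Vale.Agent.P251.T Vale.Agent.P251.M Vale.Agent.P251.F
  Vale.Agent.P251.I EvenSpheres Vale.Agent.P257.H80 Vale.Agent.P221.H746 Vale.Agent.P221.H395

section local_

variable {T : Type u} [Category.{v} T] [Preadditive T] [HasZeroObject T]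
    [HasShift T ℤ] [∀ n : ℤ, (shiftFunctor T n).Additive] [Pretriangulated T]

/-- `m ^ 2 = 0` on the cofibre of `m` -/
theorem smul_sq_cofibre {X Z : T} {m : ℤ} {q : X ⟶ Z} {w : Z ⟶ X⟦(1 : ℤ)⟧}
    (h : Triangle.mk (m • 𝟙 X) q w ∈ distTriang T) : (m * m) • 𝟙 Z = 0 := by
  have h1 : q ≫ (m • 𝟙 Z) = 0 := by
    have h2 := comp_distTriang_mor_zero₁₂ _ h
    change (m • 𝟙 X) ≫ q = 0 at h2
    rw [Preadditive.comp_zsmul, Category.comp_id]
    rwa [Preadditive.zsmul_comp, Category.id_comp] at h2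
  obtain ⟨z, hz⟩ : ∃ z : X⟦(1 : ℤ)⟧ ⟶ Z, m • 𝟙 Z = w ≫ z := Triangle.yoneda_exact₃ _ h _ h1
  have h3 := comp_distTriang_mor_zero₃₁ _ h
  change w ≫ (m • 𝟙 X)⟦(1 : ℤ)⟧' = 0 at h3
  rw [Functor.map_zsmul, CategoryTheory.Functor.map_id, Preadditive.comp_zsmul,
    Category.comp_id] at h3
  rw [mul_smul, hz, ← Preadditive.zsmul_comp, h3, zero_comp]

/-- a `p`-complete object is `p`-local -/
theorem locObj_of_pComplete {p : ℕ} (hp : p.Prime) {X : T} (hX : PComplete p X) :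
    Vale.Agent.P257.H604.LocObj p X := by
  intro m hm
  obtain ⟨Z, q, w, h⟩ := distinguished_cocone_triangle (m • 𝟙 X)
  have hZ : PComplete p Z := PComplete.ext₃ _ h hX hX
  have h1 := smul_sq_cofibre h
  have hm2 : ¬ (p : ℤ) ∣ m * m := not_dvd_mul hp hm hm
  obtain ⟨s, t, hst⟩ := exists_bezout hp hm2
  have h2 : (t * (p : ℤ)) • 𝟙 Z = 𝟙 Z := by
    conv_rhs => rw [← one_zsmul (𝟙 Z), ← hst, add_smul, mul_smul, h1, smul_zero, zero_add]
  have h3 : IsIso ((p : ℤ) • 𝟙 Z) := by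
    refine ⟨t • 𝟙 Z, ?_, ?_⟩
    · rw [Preadditive.zsmul_comp, Category.id_comp, smul_smul, mul_comm, h2]
    · rw [Preadditive.comp_zsmul, Category.comp_id, smul_smul, mul_comm, h2]
  have h4 : IsZero Z := (IsZero.iff_id_eq_zero Z).2 (hZ Z h3 (𝟙 Z))
  exact (Triangle.isZero₃_iff_isIso₁ _ h).1 h4

end local_

section mod

variable {T : Type u} [Category.{v} T] [MonoidalCategory T]

/-- restriction of a module structure along a monoid map -/
def res {B R : T} [MonObj B] [MonObj R] (f : B ⟶ R) [IsMonHom f] {X : T} (M : ModStr R X) :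
    ModStr B X where
  act := (f ▷ X) ≫ M.act
  one_act := by
    rw [← comp_whiskerRight_assoc, IsMonHom.one_hom, M.one_act]
  mul_act := by
    have h1 : (f ⊗ₘ f) ▷ X ≫ (α_ R R X).hom = (α_ B B X).hom ≫ (B ◁ (f ▷ X)) ≫ (f ▷ (R ⊗ X)) := by
      rw [MonoidalCategory.tensorHom_def', comp_whiskerRight, Category.assoc,
        associator_naturality_left, associator_naturality_middle_assoc]
    rw [← comp_whiskerRight_assoc, IsMonHom.mul_hom, comp_whiskerRight, Category.assoc, M.mul_act,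
      reassoc_of% h1, ← whisker_exchange_assoc, MonoidalCategory.whiskerLeft_comp, Category.assoc]

end mod

section loc

variable {T : Type u} [Category.{v} T] [Preadditive T] [HasZeroObject T]
    [HasShift T ℤ] [∀ n : ℤ, (shiftFunctor T n).Additive] [Pretriangulated T] [IsTriangulated T]
    [MonoidalCategory T] [SymmetricCategory T] [TensorTriangulated T] [MonoidalClosed T]
    [HasCoproducts.{0} T] [HasProducts.{0} T] [StableCat T]

/-- maps out of `Rp ⊗ (Rp ⊗ X)` -/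
theorem hom_ext₃ {p : ℕ} {R Rp : T} {l : R ⟶ Rp}
    (hl : Vale.Agent.P257.H604.IsPLoc p l) {Z : T} (hZ : Vale.Agent.P257.H604.LocObj p Z) {X : T}
    {f g : Rp ⊗ (Rp ⊗ X) ⟶ Z}
    (h : (R ◁ (l ▷ X)) ≫ (l ▷ (Rp ⊗ X)) ≫ f = (R ◁ (l ▷ X)) ≫ (l ▷ (Rp ⊗ X)) ≫ g) : f = g := by
  apply (hl.bij Z hZ (Rp ⊗ X)).1
  dsimp only
  have key : ∀ k : R ⊗ (Rp ⊗ X) ⟶ Z, (l ▷ (X ⊗ R)) ≫ (α_ Rp X R).inv ≫
      (β_ R (Rp ⊗ X)).inv ≫ k = (α_ R X R).inv ≫ (β_ R (R ⊗ X)).inv ≫ (R ◁ (l ▷ X)) ≫ k := by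
    intro k
    rw [associator_inv_naturality_left_assoc, BraidedCategory.braiding_inv_naturality_left_assoc]
  have h1 : (α_ Rp X R).inv ≫ (β_ R (Rp ⊗ X)).inv ≫ (l ▷ (Rp ⊗ X)) ≫ f =
      (α_ Rp X R).inv ≫ (β_ R (Rp ⊗ X)).inv ≫ (l ▷ (Rp ⊗ X)) ≫ g := by
    apply (hl.bij Z hZ (X ⊗ R)).1
    dsimp only
    rw [key, key, h]
  rwa [cancel_epi, cancel_epi] at h1

/-- A module structure over `R` on a `p`-local object extends to the `p`-localization of `R`. -/
theorem exists_modStr_pLoc {p : ℕ} {R Rp : T} [MonObj R] [MonObj Rp] {l : R ⟶ Rp} [IsMonHom l]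
    (hl : Vale.Agent.P257.H604.IsPLoc p l) {X : T} (hX : Vale.Agent.P257.H604.LocObj p X)
    (M : ModStr R X) : ∃ N : ModStr Rp X, (l ▷ X) ≫ N.act = M.act := by
  obtain ⟨b, hb⟩ := (hl.bij X hX X).2 M.act
  replace hb : (l ▷ X) ≫ b = M.act := hb
  refine ⟨⟨b, ?_, ?_⟩, hb⟩
  · rw [← IsMonHom.one_hom l, comp_whiskerRight, Category.assoc, hb, M.one_act]
  · rw [← cancel_epi (α_ Rp Rp X).inv, Iso.inv_hom_id_assoc]
    apply hom_ext₃ hl hX
    have h1 : (R ◁ (l ▷ X)) ≫ (l ▷ (Rp ⊗ X)) ≫ (α_ Rp Rp X).inv =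
        (α_ R R X).inv ≫ ((l ⊗ₘ l) ▷ X) := by
      rw [MonoidalCategory.tensorHom_def', comp_whiskerRight, associator_inv_naturality_left,
        associator_inv_naturality_middle_assoc]
    have h2 : (l ▷ (Rp ⊗ X)) ≫ (Rp ◁ b) ≫ b = (R ◁ b) ≫ M.act := by
      rw [← whisker_exchange_assoc, hb]
    rw [reassoc_of% h1, h2, ← comp_whiskerRight_assoc, ← IsMonHom.mul_hom, comp_whiskerRight,
      Category.assoc, hb, M.mul_act, Iso.inv_hom_id_assoc, ← MonoidalCategory.whiskerLeft_comp_assoc,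
      hb]

end loc

section mu

variable {𝒯 : Type u} [Category.{0} 𝒯] [Preadditive 𝒯] [HasZeroObject 𝒯]
    [HasShift 𝒯 ℤ] [∀ n : ℤ, (shiftFunctor 𝒯 n).Additive] [Pretriangulated 𝒯] [IsTriangulated 𝒯]
    [MonoidalCategory 𝒯] [SymmetricCategory 𝒯] [TensorTriangulated 𝒯] [MonoidalClosed 𝒯]
    [HasCoproducts.{0} 𝒯] [HasProducts.{0} 𝒯] [StableCat 𝒯]
  {F : SpaceFunctor 𝒯} {e : F.S.obj CCF ≅ (stdEven 𝒯).L} {D : MUData 𝒯} {p : ℕ}
  [hp : Fact p.Prime] {B : 𝒯} [MonObj B] [IsCommMonObj B] {b : D.R ⟶ B} [IsMonHom b]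

/-- **A `p`-local homotopy `MU`-module is a homotopy `BP`-module.** -/
theorem exists_modStr_of_mu (hD : MUUniv e D) (hb : IsBPMon p b) {X : 𝒯}
    (hX : Vale.Agent.P257.H604.LocObj p X) (M : ModStr D.R X) : Nonempty (ModStr B X) := by
  obtain ⟨Rp, _, _, l, _, hl, f, _, g, _, _, _, _⟩ := exists_retract hD hb
  obtain ⟨N, _⟩ := exists_modStr_pLoc hl hX M
  exact ⟨res f N⟩

/-- **A `p`-complete homotopy `MU`-module is a homotopy `BP`-module.** -/
theorem exists_modStr_of_mu' (hD : MUUniv e D) (hb : IsBPMon p b) {X : 𝒯} (hX : PComplete p X)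
    (M : ModStr D.R X) : Nonempty (ModStr B X) :=
  exists_modStr_of_mu hD hb (locObj_of_pComplete hp.out hX) M

end mu

end Vale.Agent.P221.H606
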